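import Vale.Agent.P300.EChart

/-! P300: coordinates on the components of the special fibre, local algebra. -/

noncomputable section

namespace Vale.Agent.P300

variable {Ω : Type} [Field Ω] [Algebra ℂ Ω]

/-- the four vertices of the tree of the five points: two indices and the level -/
def vtx : Fin 4 → Fin 5 × Fin 5 × ℕ := ![(0, 1, 2), (0, 2, 1), (0, 3, 0), (3, 4, 1)]

/-- orders of contact of the five points at the origin -/
def oo (i l : Fin 5) : ℤ :=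
  ![![0, 2, 1, 0, 0], ![2, 0, 1, 0, 0], ![1, 1, 0, 0, 0], ![0, 0, 0, 0, 1], ![0, 0, 0, 1, 0]] i l

/-- levels strictly inside an edge of the tree -/
def IsEdge (i : Fin 5) (n : ℤ) (m : ℕ) : Prop := 0 < m ∧ ∀ l, l ≠ i → n ≠ m * oo i l

namespace LA

variable {L : LA Ω} {u v z w : Ω} {e f : ℤ × ℤ}

theorem estra_one : L.Un 1 := ⟨L.O.one_mem, by rw [ev_one]; exact one_ne_zero⟩

theorem estra_pow (hz : L.Un z) (n : ℕ) : L.Un (z ^ n) := by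
  simpa using (hz.zpow n).1

theorem estra_alg {c : ℂ} (hc : c ≠ 0) : L.Un (algebraMap ℂ Ω c) :=
  ⟨L.O.algebraMap_mem c, by rwa [L.ev_alg]⟩

theorem estra_sub (hz : L.Mx z) (hw : L.Un w) : L.Un (z - w) :=
  ⟨L.O.sub_mem hz.1 hw.1, by rw [ev_sub hz.1 hw.1, hz.2, zero_sub]; exact neg_ne_zero.2 hw.2⟩

theorem estra_mx (hw : w ∈ L.O) (hz : L.Mx z) : L.Mx (w * z) :=
  ⟨L.O.mul_mem hw hz.1, by rw [L.ev_mul _ hw _ hz.1, hz.2, mul_zero]⟩

theorem estra_un (hz : L.Un z) : L.Mon u v z 0 := ⟨z, hz, by simp⟩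

theorem estra_mul (h : L.Coord u v) (hz : L.Mon u v z e) (hw : L.Mon u v w f) :
    L.Mon u v (z * w) (e + f) := by
  obtain ⟨ε, h1, rfl⟩ := hz
  obtain ⟨δ, h2, rfl⟩ := hw
  refine ⟨ε * δ, h1.mul h2, ?_⟩
  rw [Prod.fst_add, Prod.snd_add, zpow_add₀ h.ne_zero.1, zpow_add₀ h.ne_zero.2]
  ring

theorem estra_zpow (hz : L.Mon u v z e) (n : ℤ) : L.Mon u v (z ^ n) (n * e.1, n * e.2) := by
  obtain ⟨ε, h1, rfl⟩ := hz
  refine ⟨ε ^ n, (h1.zpow n).1, ?_⟩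
  rw [mul_zpow, mul_zpow, ← zpow_mul, ← zpow_mul, mul_comm n, mul_comm n]

theorem estra_npow (hz : L.Mon u v z e) (n : ℕ) : L.Mon u v (z ^ n) (n * e.1, n * e.2) := by
  simpa using estra_zpow hz n

theorem estra_ne (h : L.Coord u v) (hz : L.Mon u v z e) : z ≠ 0 := by
  obtain ⟨ε, h1, rfl⟩ := hz
  exact mul_ne_zero (mul_ne_zero h1.ne_zero (zpow_ne_zero _ h.ne_zero.1))
    (zpow_ne_zero _ h.ne_zero.2)

/-- elements that are constant modulo `I` -/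
def estraR (L : LA Ω) (I : Submodule L.O Ω) : Subalgebra ℂ Ω where
  carrier := {z | z ∈ L.O ∧ L.ctr z ∈ I}
  mul_mem' := by
    rintro z w ⟨hz, hz'⟩ ⟨hw, hw'⟩
    refine ⟨L.O.mul_mem hz hw, ?_⟩
    have e : L.ctr (z * w) = z * L.ctr w + algebraMap ℂ Ω (L.ev w) * L.ctr z := by
      simp only [ctr, L.ev_mul z hz w hw, map_mul]; ring
    rw [e]
    exact I.add_mem (I.smul_mem ⟨z, hz⟩ hw') (I.smul_mem ⟨_, L.O.algebraMap_mem _⟩ hz')
  add_mem' := by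
    rintro z w ⟨hz, hz'⟩ ⟨hw, hw'⟩
    refine ⟨L.O.add_mem hz hw, ?_⟩
    have e : L.ctr (z + w) = L.ctr z + L.ctr w := by
      simp only [ctr, L.ev_add z hz w hw, map_add]; ring
    rw [e]
    exact I.add_mem hz' hw'
  algebraMap_mem' c := ⟨L.O.algebraMap_mem c, by
    rw [ctr, L.ev_alg, sub_self]; exact I.zero_mem⟩

variable {I : Submodule L.O Ω}

theorem estraR_mx (hz : L.Mx z) (hI : z ∈ I) : z ∈ L.estraR I :=
  ⟨hz.1, by rwa [ctr, hz.2, map_zero, sub_zero]⟩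

theorem estraR_inv (hz : L.Un z) (hI : z ∈ L.estraR I) : z⁻¹ ∈ L.estraR I := by
  refine ⟨hz.inv.1.1, ?_⟩
  have h1 := hz.ne_zero
  have h2 := (estra_alg (L := L) hz.2).ne_zero
  have e : L.ctr z⁻¹ = -(z⁻¹ * algebraMap ℂ Ω (L.ev z)⁻¹) * L.ctr z := by
    rw [ctr, ctr, hz.inv.2, map_inv₀]; field_simp; ring
  rw [e]
  exact I.smul_mem ⟨_, L.O.neg_mem (L.O.mul_mem hz.inv.1.1 (L.O.algebraMap_mem _))⟩ hI.2

theorem estraR_zpow (hz : L.Un z) (hI : z ∈ L.estraR I) (n : ℤ) : z ^ n ∈ L.estraR I := by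
  obtain ⟨k, rfl | rfl⟩ := Int.eq_nat_or_neg n
  · rw [zpow_natCast]; exact Subalgebra.pow_mem _ hI k
  · rw [zpow_neg, zpow_natCast]; exact estraR_inv (estra_pow hz k) (Subalgebra.pow_mem _ hI k)

theorem estraR_root (hz : L.Un z) {N : ℕ} (hN : 0 < N) (hI : z ^ N ∈ L.estraR I) :
    z ∈ L.estraR I := by
  refine ⟨hz.1, ?_⟩
  set σ : L.O := ∑ i ∈ Finset.range N, ⟨z, hz.1⟩ ^ i * algebraMap ℂ L.O (L.ev z) ^ (N - 1 - i)
    with hσ
  have h1 : L.evHom σ = N * L.ev z ^ (N - 1) := by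
    rw [hσ, map_sum, ← geom_sum₂_self]
    refine Finset.sum_congr rfl fun i _ => ?_
    rw [map_mul, map_pow, map_pow, AlgHom.commutes]
    rfl
  have h2 : L.Un σ := ⟨σ.2, by
    change L.evHom σ ≠ 0
    rw [h1]
    exact mul_ne_zero (Nat.cast_ne_zero.2 hN.ne') (pow_ne_zero _ hz.2)⟩
  have h3 : (σ : Ω) * L.ctr z = L.ctr (z ^ N) := by
    rw [ctr, ctr, ev_pow hz.1, map_pow, ← geom_sum₂_mul, hσ]
    simp
  rw [(eq_inv_mul_iff_mul_eq₀ h2.ne_zero).2 h3]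
  exact I.smul_mem ⟨_, h2.inv.1.1⟩ hI.2

/-- a power of `z` is a power of `b` times a unit that is constant modulo `I` -/
def estraP (L : LA Ω) (I : Submodule L.O Ω) (b : Ω) (N : ℕ) (z : Ω) : Prop :=
  ∃ ρ ∈ L.estraR I, L.Un ρ ∧ ∃ j : ℤ, z ^ N = ρ * b ^ j

theorem estraP.pow {b : Ω} {N : ℕ} (h : L.estraP I b N z) (m : ℕ) : L.estraP I b (N * m) z := by
  obtain ⟨ρ, h1, h2, j, h3⟩ := h
  refine ⟨ρ ^ m, Subalgebra.pow_mem _ h1 m, estra_pow h2 m, j * m, ?_⟩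
  rw [pow_mul, h3, mul_pow, zpow_mul, zpow_natCast]

/-- the ideal generated by the radical of `b` and by `ξ` minus its value -/
def estraI (L : LA Ω) {b : Ω} (hb : b ∈ L.O) (ξ : Ω) : Submodule L.O Ω :=
  Submodule.map (Algebra.linearMap L.O Ω) (Ideal.span {(⟨b, hb⟩ : L.O)}).radical ⊔
    Submodule.span L.O {L.ctr ξ}

theorem estraI_xi {b ξ : Ω} (hb : b ∈ L.O) (hξ : ξ ∈ L.O) : ξ ∈ L.estraR (L.estraI hb ξ) :=
  ⟨hξ, Submodule.mem_sup_right (Submodule.mem_span_singleton_self _)⟩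

theorem estraI_rad {b ξ : Ω} (hb : L.Mx b) (hz : z ∈ L.O) (hw : w ∈ L.O) {m : ℕ} (hm : 0 < m)
    {j : ℤ} (hj : 0 < j) (h : z ^ m = w * b ^ j) : L.Mx z ∧ z ∈ L.estraR (L.estraI hb.1 ξ) := by
  obtain ⟨k, rfl⟩ : ∃ k : ℕ, j = (k + 1 : ℕ) := ⟨(j - 1).toNat, by omega⟩
  rw [zpow_natCast, pow_succ, ← mul_assoc] at h
  have h1 := L.O.mul_mem hw (L.O.pow_mem hb.1 k)
  have h2 : L.Mx z := ⟨hz, by
    have h3 := (estra_mx h1 hb).2
    rwa [← h, ev_pow hz, pow_eq_zero_iff hm.ne'] at h3⟩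
  exact ⟨h2, estraR_mx h2 (Submodule.mem_sup_left ⟨⟨z, hz⟩, ⟨m, Ideal.mem_span_singleton'.2
    ⟨⟨_, h1⟩, Subtype.ext h.symm⟩⟩, rfl⟩)⟩

end LA

theorem estra_av {R : Subalgebra ℂ Ω} {L : LA Ω} {b : Ω} (hb : L.Mx b) (hR : b ∈ R) {i l : Fin 5}
    (h : l ≠ i) : ∃ ε ∈ R, L.Un ε ∧ (i < l → L.ev ε = 1) ∧ av l b - av i b = ε * b ^ oo i l := by
  have h1 : ∃ s α β : ℤ, s ≠ 0 ∧ (i < l → s = 1) ∧
      av l b - av i b = (s - (α + β * b) * b) * b ^ oo i l := by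
    refine ⟨if i < l then 1 else -1,
      ![![0, 0, 0, 0, -1], ![0, 0, 1, 0, -1], ![0, -1, 0, 1, 0], ![0, 0, -1, 0, 0],
        ![1, 1, 0, 0, 0]] i l,
      ![![0, 0, 0, 0, 0], ![0, 0, 0, 1, 1], ![0, 0, 0, 0, 0], ![0, -1, 0, 0, 0],
        ![0, -1, 0, 0, 0]] i l, by split_ifs <;> decide, fun h1 => if_pos h1, ?_⟩
    fin_cases i <;> fin_cases l <;> simp [av, oo] at h ⊢ <;> ring
  obtain ⟨s, α, β, h2, h3, h4⟩ := h1
  have h5 := LA.estra_mx (L.O.add_mem (intCast_mem L.O α)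
    (L.O.mul_mem (intCast_mem L.O β) hb.1)) hb
  have h6 : L.ev (s - (α + β * b) * b) = s := by
    rw [LA.ev_sub (intCast_mem L.O s) h5.1, h5.2, sub_zero, ← map_intCast (algebraMap ℂ Ω),
      L.ev_alg]
  refine ⟨_, R.sub_mem (intCast_mem R s) (R.mul_mem (R.add_mem (intCast_mem R α)
    (R.mul_mem (intCast_mem R β) hR)) hR), ⟨L.O.sub_mem (intCast_mem L.O s) h5.1, ?_⟩,
    fun h7 => by rw [h6, h3 h7, Int.cast_one], h4⟩
  rw [h6]
  exact Int.cast_ne_zero.2 h2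

theorem estra_vtx (i l : Fin 5) : l ≠ i → ∃ k, ((vtx k).2.2 : ℤ) = oo i l ∧
    ((vtx k).1 ≠ i → oo i l ≤ oo i (vtx k).1) ∧ ((vtx k).2.1 ≠ i → oo i l ≤ oo i (vtx k).2.1) := by
  revert i l; decide

theorem estra_lt (k : Fin 4) (l : Fin 5) :
    l ≠ (vtx k).1 → ((vtx k).2.2 : ℤ) = oo (vtx k).1 l → (vtx k).1 < l := by
  revert k l; decide

namespace Dat

variable (D : Dat Ω)

/-- coordinate at a vertex -/
def xiV (k : Fin 4) : Ω := (D.x - av (vtx k).1 D.b) / D.b ^ (vtx k).2.2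

/-- coordinate on an edge -/
def xiE (i : Fin 5) (n : ℤ) (m : ℕ) (c : ℂ) : Ω :=
  algebraMap ℂ Ω c * (D.x - av i D.b) ^ m / D.b ^ n

/-- edge coordinates -/
def AdmE (ξ : Ω) : Prop := ∃ i n m c, IsEdge i n m ∧ c ≠ 0 ∧ ξ = D.xiE i n m c

/-- admissible coordinates -/
def Adm (ξ : Ω) : Prop := (∃ k, ξ = D.xiV k) ∨ D.AdmE ξ

/-- smooth points of the boundary -/
def Sm (L : LA Ω) : Prop := ∃ u v, L.Coord u v ∧ ∀ φ, ∃ k : ℤ, L.Mon u v (D.phi φ) (k, 0)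

/-- `ξ` is a coordinate along the reduced fibre -/
def Par (L : LA Ω) (ξ : Ω) : Prop :=
  ∃ (u ε : Ω) (m : ℕ), 0 < m ∧ L.Coord u (L.ctr ξ) ∧ L.Un ε ∧ D.b = ε * u ^ m

variable {D}

theorem estra_zero (D : Dat Ω) : (0 : ℂ) ∈ D.S := by
  by_contra h1
  have h2 : (0 : Fin 5) = 2 := D.hS 0 h1 rfl
  exact absurd h2 (by decide)

theorem estra_rt (D : Dat Ω) : D.rt 0 ^ D.E = D.b := by
  simpa using D.hrt 0 D.estra_zero

theorem estra_mono (D : Dat Ω) (i : Fin 5) (a c : ℤ) :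
    ∃ n, (D.x - av i D.b) ^ a * D.b ^ c = D.mono n := by
  classical
  refine ⟨Sum.elim (fun p => if p = ⟨0, D.estra_zero⟩ then D.E * c else 0)
    (fun l => if l = i then a else 0), ?_⟩
  have h : ∀ (z : Ω) (P : Prop) [Decidable P] (n : ℤ),
      z ^ (if P then n else 0) = if P then z ^ n else 1 := fun z P _ n => by split_ifs <;> simp
  rw [mono, Fintype.prod_sum_type, mul_comm]
  simp only [Sum.elim_inl, Sum.elim_inr, phi, h, Finset.prod_ite_eq', Finset.mem_univ, if_true]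
  rw [zpow_mul, zpow_natCast, estra_rt]

theorem estra_xi1 (hb : D.b ≠ 0) (k : Fin 4) :
    D.xiV k - 1 = (D.x - av (vtx k).2.1 D.b) / D.b ^ (vtx k).2.2 := by
  rw [xiV, div_sub_one (pow_ne_zero _ hb)]
  fin_cases k <;> simp [vtx, av, sub_sub]

theorem xiV_mono (hb : D.b ≠ 0) (k : Fin 4) :
    (∃ n, D.xiV k = D.mono n) ∧ (∃ n, D.xiV k - 1 = D.mono n) ∧ ∃ n, (D.xiV k)⁻¹ = D.mono n := by
  refine ⟨?_, ?_, ?_⟩
  · simpa [xiV, div_eq_mul_inv] using D.estra_mono (vtx k).1 1 (-((vtx k).2.2 : ℤ))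
  · rw [estra_xi1 hb]
    simpa [div_eq_mul_inv] using D.estra_mono (vtx k).2.1 1 (-((vtx k).2.2 : ℤ))
  · simpa [xiV, div_eq_inv_mul] using D.estra_mono (vtx k).1 (-1) ((vtx k).2.2 : ℤ)

theorem AdmE.mono {ξ : Ω} (h : D.AdmE ξ) :
    ∃ (c : ℂ) (n : D.Ix → ℤ), c ≠ 0 ∧ ξ = algebraMap ℂ Ω c * D.mono n := by
  obtain ⟨i, n, m, c, -, hc, rfl⟩ := h
  obtain ⟨k, hk⟩ := D.estra_mono i m (-n)
  exact ⟨c, k, hc, by rw [← hk, xiE, zpow_neg, zpow_natCast, div_eq_mul_inv, mul_assoc]⟩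

theorem b_mono : ∃ n, D.b = D.mono n := by
  simpa using D.estra_mono 0 0 1

theorem Sm.exists_adm {L : LA Ω} [IsNoetherianRing L.O] (h : D.Sm L) (hb : L.Mx D.b) :
    ∃ ξ, D.Adm ξ ∧ ξ ∈ L.O ∧ L.ev ξ ≠ 0 ∧ L.ev ξ ≠ 1 := by
  obtain ⟨u, v, hc, h⟩ := h
  choose n hn using fun l => h (Sum.inr l)
  obtain ⟨M, hM0, hM⟩ : ∃ M : ℕ, 0 < M ∧ L.Mon u v D.b (M, 0) := by
    obtain ⟨k, hk⟩ := h (Sum.inl ⟨0, D.estra_zero⟩)
    have h1 := LA.estra_npow hk D.E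
    rw [phi, estra_rt, mul_zero] at h1
    obtain ⟨h2, h3⟩ := hc.mon_mem h1
    obtain ⟨M, hM⟩ := Int.eq_ofNat_of_zero_le (h2.1 hb.1).1
    rw [show (D.E : ℤ) * k = M from hM] at h1 h3
    exact ⟨M, Nat.pos_of_ne_zero fun h0 => (h3.2 (by rw [h0]; rfl)).2 hb.2, h1⟩
  have hun : ∀ (l : Fin 5) (m : ℕ) (j : ℤ), m * n l = M * j →
      L.Un ((D.x - av l D.b) ^ m / D.b ^ j) := fun l m j hj => by
    rw [div_eq_mul_inv, ← zpow_neg]
    refine (hc.mon_mem (LA.estra_mul hc (LA.estra_npow (hn l) m) (LA.estra_zpow hM (-j)))).2.2 ?_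
    ext <;> simp [hj, mul_comm]
  obtain ⟨i, -, hi⟩ := Finset.exists_max_image Finset.univ n Finset.univ_nonempty
  by_cases hE : ∀ l, l ≠ i → n i ≠ M * oo i l
  · have h1 := hun i M (n i) rfl
    have h2 : D.xiE i (n i) M (2 / L.ev ((D.x - av i D.b) ^ M / D.b ^ n i)) = _ :=
      mul_div_assoc _ _ _
    have h3 := L.ev_mul _ (L.O.algebraMap_mem (2 / L.ev ((D.x - av i D.b) ^ M / D.b ^ n i))) _ h1.1
    rw [L.ev_alg, div_mul_cancel₀ _ h1.2, ← h2] at h3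
    refine ⟨_, Or.inr ⟨i, n i, M, _, ⟨hM0, hE⟩, div_ne_zero two_ne_zero h1.2, rfl⟩,
      h2 ▸ L.O.mul_mem (L.O.algebraMap_mem _) h1.1, ?_, ?_⟩ <;> rw [h3] <;> norm_num
  · push Not at hE
    obtain ⟨l, hl, hn1⟩ := hE
    have key : ∀ a, (a ≠ i → oo i l ≤ oo i a) → n a = M * oo i l := fun a ha => by
      by_cases hai : a = i
      · rw [hai, hn1]
      obtain ⟨ε, -, h1, -, h2⟩ := estra_av (R := ⊤) hb Algebra.mem_top hai
      have h3 := LA.estra_mul hc (hn a) (LA.estra_zpow hM (-oo i l))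
      have h4 := LA.estra_mul hc (hn i) (LA.estra_zpow hM (-oo i l))
      have h5 := LA.estra_mul hc (LA.estra_mul hc (LA.estra_un h1) (LA.estra_zpow hM (oo i a)))
        (LA.estra_zpow hM (-oo i l))
      have h6 := L.O.sub_mem ((hc.mon_mem h4).1.2 (by simp [hn1, mul_comm]))
        ((hc.mon_mem h5).1.2 (by simpa using mul_le_mul_of_nonneg_right (ha hai) M.cast_nonneg))
      rw [← sub_mul, ← h2, phi, sub_sub, add_sub_cancel] at h6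
      have h7 := ((hc.mon_mem h3).1.1 h6).1
      have h8 := hi a (Finset.mem_univ a)
      simp only [Prod.fst_add] at h7
      linarith
    obtain ⟨k, k1, k2, k3⟩ := estra_vtx i l hl
    have h1 := hun _ 1 (vtx k).2.2 (by rw [key _ k2, k1]; simp)
    have h2 := hun _ 1 (vtx k).2.2 (by rw [key _ k3, k1]; simp)
    rw [pow_one, zpow_natCast] at h1 h2
    rw [← estra_xi1 (LA.estra_ne hc hM)] at h2
    refine ⟨D.xiV k, Or.inl ⟨k, rfl⟩, h1.1, h1.2, fun h3 => h2.2 ?_⟩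
    rw [LA.ev_sub (z := D.xiV k) h1.1 L.O.one_mem, LA.ev_one, h3, sub_self]

theorem estra_bmon {L : LA Ω} {u v : Ω} {e : D.Ix → ℤ × ℤ} (h : D.InvAt L u v e) :
    L.Mon u v D.b (D.E * (e (Sum.inl ⟨0, D.estra_zero⟩)).1,
      D.E * (e (Sum.inl ⟨0, D.estra_zero⟩)).2) := by
  have h1 := LA.estra_npow (h.2.1 (Sum.inl ⟨0, D.estra_zero⟩)) D.E
  rwa [phi, estra_rt] at h1

theorem estra_core {L : LA Ω} [IsNoetherianRing L.O] {u v : Ω} {e : D.Ix → ℤ × ℤ}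
    (h : D.InvAt L u v e) (hb : L.Mx D.b) {ξ : Ω} (hξ : ξ ∈ L.O) {m : ℕ} (hm : 0 < m)
    (H : ∀ l, L.estraP (L.estraI hb.1 ξ) D.b m (D.x - av l D.b)) : D.Par L ξ := by
  have hc := h.1
  have hbR := (LA.estraI_rad (ξ := ξ) hb hb.1 L.O.one_mem one_pos one_pos (by simp)).2
  have hN : 0 < D.E * m := Nat.mul_pos D.hE hm
  have H' : ∀ φ, L.estraP (L.estraI hb.1 ξ) D.b (D.E * m) (D.phi φ) := by
    rintro (p | l)
    · refine LA.estraP.pow ?_ m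
      by_cases hp : (p : ℂ) = 0
      · exact ⟨1, one_mem _, LA.estra_one, 1, by simp [phi, hp, estra_rt]⟩
      · exact ⟨_, Subalgebra.sub_mem _ hbR (Subalgebra.algebraMap_mem _ (p : ℂ)),
          LA.estra_sub hb (LA.estra_alg hp), 0, by simp [phi, D.hrt p p.2]⟩
    · rw [mul_comm]; exact (H l).pow _
  choose ρ ρR ρU j hj using H'
  obtain ⟨B, hBe, hB⟩ : ∃ B, B = _ ∧ L.Mon u v D.b B := ⟨_, rfl, estra_bmon h⟩
  have hB0 : B ≠ 0 := fun h0 => ((hc.mon_mem hB).2.2 h0).2 hb.2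
  have he : ∀ φ, ((D.E * m : ℕ) : ℤ) * (e φ).1 = j φ * B.1 ∧
      ((D.E * m : ℕ) : ℤ) * (e φ).2 = j φ * B.2 := fun φ => by
    have h1 := LA.estra_npow (h.2.1 φ) (D.E * m)
    rw [hj] at h1
    simpa using hc.mon_unique h1 (LA.estra_mul hc (LA.estra_un (ρU φ)) (LA.estra_zpow hB (j φ)))
  have hN' : ((D.E * m : ℕ) : ℤ) ≠ 0 := by exact_mod_cast hN.ne'
  rcases h.2.2 with ⟨h1, -⟩ | ⟨h1, -, k, h2, h3⟩ | ⟨φ, φ', h1⟩
  · exact absurd (by rw [hBe, h1]; simp) hB0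
  · obtain ⟨M, hM⟩ := Int.eq_ofNat_of_zero_le ((hc.mon_mem hB).1.1 hb.1).1
    have hB2 : B.2 = 0 := by rw [hBe, h1, mul_zero]
    obtain ⟨M, rfl⟩ := Nat.exists_eq_succ_of_ne_zero (n := M) fun h0 =>
      hB0 (Prod.ext (by rw [hM, h0]; rfl) hB2)
    have hρ : (∏ φ, ρ φ ^ k φ) ∈ L.estraR (L.estraI hb.1 ξ) ∧ L.Un (∏ φ, ρ φ ^ k φ) :=
      ⟨Subalgebra.prod_mem _ fun φ _ => LA.estraR_zpow (ρU φ) (ρR φ) _,
        Finset.prod_induction _ L.Un (fun _ _ => LA.Un.mul) LA.estra_one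
          fun φ _ => ((ρU φ).zpow _).1⟩
    have h4 : D.mono k ^ (D.E * m) = (∏ φ, ρ φ ^ k φ) * D.b ^ ∑ φ, j φ * k φ := by
      rw [mono, ← Finset.prod_pow, ← echart_zpow_sum _ (LA.estra_ne hc hB),
        ← Finset.prod_mul_distrib]
      refine Finset.prod_congr rfl fun φ _ => ?_
      rw [← zpow_natCast, ← zpow_mul, mul_comm (k φ), zpow_mul, zpow_natCast, hj, mul_zpow,
        zpow_mul]
    have h5 := (hc.mon_mem (LA.estra_mul hc (LA.estra_un hρ.2)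
      (LA.estra_zpow hB (∑ φ, j φ * k φ)))).2.1 (h4 ▸ LA.estra_pow h2 _)
    have h6 : ∑ φ, j φ * k φ = 0 := by
      have h7 := congrArg Prod.fst h5
      simp only [Prod.fst_zero, zero_add, hM] at h7
      exact (mul_eq_zero.1 h7).resolve_right (by positivity)
    rw [h6, zpow_zero, mul_one] at h4
    obtain ⟨_, ⟨α, ⟨s, hs⟩, rfl⟩, _, h8, h9⟩ :=
      Submodule.mem_sup.1 (LA.estraR_root h2 hN (h4 ▸ hρ.1)).2
    obtain ⟨β, rfl⟩ := Submodule.mem_span_singleton.1 h8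
    obtain ⟨ε, hε, hbe⟩ := hB
    rw [hM, hB2, zpow_zero, mul_one, zpow_natCast] at hbe
    obtain ⟨γ, hγ⟩ : (⟨u, hc.1.1.1⟩ : L.O) ∣ α := by
      refine hc.prime.dvd_of_dvd_pow (n := s) (dvd_trans ?_ (Ideal.mem_span_singleton.1 hs))
      exact ⟨⟨ε * u ^ M, L.O.mul_mem hε.1 (L.O.pow_mem hc.1.1.1 M)⟩,
        Subtype.ext (by simp only [hbe, MulMemClass.mk_mul_mk, pow_succ]; ring)⟩
    refine ⟨u, ε, M + 1, M.succ_pos, hc.change ⟨hc.1.1, LA.mx_ctr hξ, fun z hz => ?_⟩, hε, hbe⟩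
    obtain ⟨a, ha, c, hc', rfl⟩ := h3.1.2.2 z hz
    refine ⟨a + c * γ, L.O.add_mem ha (L.O.mul_mem hc' γ.2), c * β, L.O.mul_mem hc' β.2, ?_⟩
    rw [← h9, hγ]
    change a * u + c * (u * γ + β * L.ctr ξ) = _
    ring
  · refine absurd (mul_left_cancel₀ (mul_ne_zero hN' hN') ?_) h1
    linear_combination ((D.E * m : ℕ) * (e φ').2) * (he φ).1 + (j φ * B.1) * (he φ').2 -
      ((D.E * m : ℕ) * (e φ').1) * (he φ).2 - (j φ * B.2) * (he φ').1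

theorem estra_far {L : LA Ω} [IsNoetherianRing L.O] {u v : Ω} {e : D.Ix → ℤ × ℤ}
    (h : D.InvAt L u v e) (hb : L.Mx D.b) {ξ η : Ω} (hη : η ∈ L.estraR (L.estraI hb.1 ξ))
    (hη' : L.Un η) {i l : Fin 5} {m : ℕ} (hm : 0 < m) {n : ℤ}
    (hi : (D.x - av i D.b) ^ m = η * D.b ^ n) (hl : l ≠ i) (hn : n ≠ m * oo i l) :
    L.estraP (L.estraI hb.1 ξ) D.b m (D.x - av l D.b) := by
  have hc := h.1
  have hbR := (LA.estraI_rad (ξ := ξ) hb hb.1 L.O.one_mem one_pos one_pos (by simp)).2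
  have hB := estra_bmon h
  have hb0 := LA.estra_ne hc hB
  have hy := h.2.1 (Sum.inr i)
  have hy0 : D.x - av i D.b ≠ 0 := LA.estra_ne hc hy
  obtain ⟨ε, εR, εU, -, hε⟩ := estra_av hb hbR hl
  have key : ∀ (z w : Ω) (f : ℤ × ℤ) (j : ℤ), L.Mon u v z f → w ∈ L.O → 0 < j →
      z ^ m = w * D.b ^ j → L.Mx z ∧ z ∈ L.estraR (L.estraI hb.1 ξ) := fun z w f j h1 h2 h3 h4 => by
    refine LA.estraI_rad hb ((hc.mon_mem h1).1.2 ?_) h2 hm h3 h4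
    have h5 : z ^ m ∈ L.O := by
      obtain ⟨k, rfl⟩ := Int.eq_ofNat_of_zero_le h3.le
      rw [h4, zpow_natCast]
      exact L.O.mul_mem h2 (L.O.pow_mem hb.1 k)
    have h6 := (hc.mon_mem (LA.estra_npow h1 m)).1.1 h5
    have h7 : (0 : ℤ) < m := by exact_mod_cast hm
    exact ⟨nonneg_of_mul_nonneg_right (by simpa [mul_comm] using h6.1) h7,
      nonneg_of_mul_nonneg_right (by simpa [mul_comm] using h6.2) h7⟩
  have e1 : D.x - av l D.b = D.x - av i D.b - ε * D.b ^ oo i l := by rw [← hε]; ring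
  rcases lt_or_gt_of_ne hn with h1 | h1
  · obtain ⟨h2, h3⟩ := key _ η⁻¹ _ (m * oo i l - n)
      (LA.estra_mul hc (LA.estra_zpow hB (oo i l)) (LA.estra_zpow hy (-1))) hη'.inv.1.1
      (sub_pos.2 h1) (by
        rw [mul_pow, zpow_neg_one, inv_pow, phi, hi, zpow_sub₀ hb0, mul_comm (m : ℤ), zpow_mul,
          zpow_natCast]
        field_simp)
    have h4 := LA.estra_sub (LA.estra_mx εU.1 h2) LA.estra_one
    have h5 := (LA.estra_alg (L := L) (neg_ne_zero.2 one_ne_zero)).mul h4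
    refine ⟨_, Subalgebra.mul_mem _ (Subalgebra.pow_mem _ (Subalgebra.mul_mem _
      (Subalgebra.algebraMap_mem _ (-1)) (Subalgebra.sub_mem _ (Subalgebra.mul_mem _ εR h3)
        (one_mem _))) m) hη, (LA.estra_pow h5 m).mul hη', n, ?_⟩
    rw [mul_assoc, ← hi, ← mul_pow, e1, phi, zpow_neg_one, map_neg, map_one]
    congr 1
    field_simp
    ring
  · obtain ⟨h2, h3⟩ := key _ η _ (n - m * oo i l)
      (LA.estra_mul hc hy (LA.estra_zpow hB (-oo i l))) hη'.1 (sub_pos.2 h1) (by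
        rw [mul_pow, zpow_neg, inv_pow, phi, hi, zpow_sub₀ hb0, mul_comm (m : ℤ), zpow_mul,
          zpow_natCast]
        field_simp)
    refine ⟨_, Subalgebra.pow_mem _ (Subalgebra.sub_mem _ h3 εR) m,
      LA.estra_pow (LA.estra_sub h2 εU) m, oo i l * m, ?_⟩
    rw [zpow_mul, zpow_natCast, ← mul_pow, e1, phi, zpow_neg, sub_mul,
      inv_mul_cancel_right₀ (zpow_ne_zero _ hb0)]

theorem InvAt.par_vtx {L : LA Ω} [IsNoetherianRing L.O] {u v : Ω} {e : D.Ix → ℤ × ℤ}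
    (h : D.InvAt L u v e) (hb : L.Mx D.b) (k : Fin 4) (h0 : L.Un (D.xiV k))
    (h1 : L.ev (D.xiV k) ≠ 1) : D.Par L (D.xiV k) := by
  have hb0 := LA.estra_ne h.1 (estra_bmon h)
  have hR := LA.estraI_xi hb.1 h0.1
  have hi : (D.x - av (vtx k).1 D.b) ^ 1 = D.xiV k * D.b ^ ((vtx k).2.2 : ℤ) := by
    rw [xiV, zpow_natCast, pow_one, div_mul_cancel₀ _ (pow_ne_zero _ hb0)]
  refine estra_core h hb h0.1 one_pos fun l => ?_
  by_cases hl : l = (vtx k).1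
  · exact ⟨_, hR, h0, _, hl ▸ hi⟩
  by_cases hn : ((vtx k).2.2 : ℤ) = oo (vtx k).1 l
  · obtain ⟨ε, εR, εU, h2, hε⟩ := estra_av hb
      (LA.estraI_rad (ξ := D.xiV k) hb hb.1 L.O.one_mem one_pos one_pos (by simp)).2 hl
    refine ⟨_, Subalgebra.sub_mem _ hR εR, ⟨L.O.sub_mem h0.1 εU.1, ?_⟩, (vtx k).2.2, ?_⟩
    · rw [LA.ev_sub h0.1 εU.1, h2 (estra_lt k l hl hn)]
      exact sub_ne_zero.2 h1
    · rw [sub_mul, ← hi, hn, ← hε]; ring
  · exact estra_far h hb hR h0 one_pos hi hl (by simpa using hn)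

theorem InvAt.par_edge {L : LA Ω} [IsNoetherianRing L.O] {u v : Ω} {e : D.Ix → ℤ × ℤ}
    (h : D.InvAt L u v e) (hb : L.Mx D.b) {ξ : Ω} (hξ : D.AdmE ξ) (h0 : L.Un ξ) : D.Par L ξ := by
  have hb0 := LA.estra_ne h.1 (estra_bmon h)
  obtain ⟨i, n, m, c, ⟨hm, hE⟩, hc, hξ⟩ := hξ
  have hR := Subalgebra.mul_mem _ (Subalgebra.algebraMap_mem _ c⁻¹) (LA.estraI_xi hb.1 h0.1)
  have hU := (LA.estra_alg (L := L) (inv_ne_zero hc)).mul h0
  have hi : (D.x - av i D.b) ^ m = algebraMap ℂ Ω c⁻¹ * ξ * D.b ^ n := by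
    rw [hξ, xiE, mul_assoc, div_mul_cancel₀ _ (zpow_ne_zero _ hb0), ← mul_assoc, ← map_mul,
      inv_mul_cancel₀ hc, map_one, one_mul]
  refine estra_core h hb h0.1 hm fun l => ?_
  by_cases hl : l = i
  · exact ⟨_, hR, hU, _, hl ▸ hi⟩
  · exact estra_far h hb hR hU hm hi hl (hE l hl)

end Dat

end Vale.Agent.P300
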